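import Mathlib

/-! P273 / H908: the flat frame (linear algebra): the six numbers determine the form smoothly. -/

namespace Vale.Agent.P273.H908

open Set Filter Topology
open scoped ContDiff

noncomputable section

/-- real part of `a p.1 + c p.2`, plus `r` -/
def val (p : ℂ × ℂ) (v : ℂ × ℂ × ℝ) : ℝ := (v.1 * p.1 + v.2.1 * p.2).re + v.2.2

/-- the same as a continuous linear map -/
def valL (p : ℂ × ℂ) : (ℂ × ℂ × ℝ) →L[ℝ] ℝ :=
  LinearMap.toContinuousLinearMap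
    { toFun := val p
      map_add' := by intro x y; simp [val]; ring
      map_smul' := by intro m x; simp [val]; ring }

@[simp] theorem valL_apply (p : ℂ × ℂ) (v : ℂ × ℂ × ℝ) : valL p v = val p v := rfl

/-- the first five values -/
def PM (p : Fin 6 → ℂ × ℂ) : (ℂ × ℂ × ℝ) →L[ℝ] (Fin 5 → ℝ) :=
  ContinuousLinearMap.pi fun i => valL (p i.castSucc)

@[simp] theorem PM_apply (p : Fin 6 → ℂ × ℂ) (v : ℂ × ℂ × ℝ) (i : Fin 5) :
    PM p v i = val (p i.castSucc) v := rfl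

/-- forgetting the last number -/
def Q5 : (Fin 6 → ℝ) →L[ℝ] (Fin 5 → ℝ) :=
  ContinuousLinearMap.pi fun i => ContinuousLinearMap.proj i.castSucc

@[simp] theorem Q5_apply (ξ : Fin 6 → ℝ) (i : Fin 5) : Q5 ξ i = ξ i.castSucc := rfl

/-- the alternating sum of six numbers -/
def alt {M : Type*} [AddCommGroup M] (ξ : Fin 6 → M) : M :=
  ξ 0 - ξ 1 + ξ 2 - ξ 3 + ξ 4 - ξ 5

theorem alt_val {p : Fin 6 → ℂ × ℂ} (hp : alt p = 0) (v : ℂ × ℂ × ℝ) :
    alt (fun j => val (p j) v) = 0 := by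
  have h1 := congrArg Prod.fst hp
  have h2 := congrArg Prod.snd hp
  simp only [alt, Prod.fst_sub, Prod.fst_add, Prod.snd_sub, Prod.snd_add, Prod.fst_zero,
    Prod.snd_zero] at h1 h2
  have h3 : v.1 * ((p 0).1 - (p 1).1 + (p 2).1 - (p 3).1 + (p 4).1 - (p 5).1) +
      v.2.1 * ((p 0).2 - (p 1).2 + (p 2).2 - (p 3).2 + (p 4).2 - (p 5).2) = 0 := by
    rw [h1, h2]; ring
  have h4 := congrArg Complex.re h3
  simp only [alt, val]
  simp only [Complex.add_re, Complex.mul_re, Complex.sub_re, Complex.sub_im, Complex.add_im,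
    Complex.zero_re] at h4 ⊢
  linarith

theorem eq_of_alt {M : Type*} [AddCommGroup M] {ξ η : Fin 6 → M} (h1 : alt ξ = 0)
    (h2 : alt η = 0) (h : ∀ i : Fin 5, ξ i.castSucc = η i.castSucc) : ξ = η := by
  have e : ∀ ζ : Fin 6 → M, alt ζ = 0 → ζ 5 = ζ 0 - ζ 1 + ζ 2 - ζ 3 + ζ 4 := by
    intro ζ hζ
    rw [alt, sub_eq_zero] at hζ
    exact hζ.symm
  have h0 : ξ 0 = η 0 := h 0
  have h1' : ξ 1 = η 1 := h 1
  have h2' : ξ 2 = η 2 := h 2
  have h3' : ξ 3 = η 3 := h 3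
  have h4' : ξ 4 = η 4 := h 4
  funext j
  fin_cases j
  · exact h0
  · exact h1'
  · exact h2'
  · exact h3'
  · exact h4'
  · show ξ 5 = η 5
    rw [e ξ h1, e η h2, h0, h1', h2', h3', h4']

theorem PM_injective {p : Fin 6 → ℂ × ℂ} (hp : alt p = 0)
    (hinj : ∀ a c : ℂ, ∀ r : ℝ, (∀ j, (a * (p j).1 + c * (p j).2).re + r = 0) → a = 0 ∧ c = 0) :
    Function.Injective (PM p) := by
  rw [injective_iff_map_eq_zero]
  intro v hv
  have h1 : (fun j => val (p j) v) = 0 := by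
    refine eq_of_alt (alt_val hp v) (by simp [alt]) fun i => ?_
    have := congrFun hv i
    simpa using this
  have h2 := hinj v.1 v.2.1 v.2.2 fun j => congrFun h1 j
  have h3 : v.2.2 = 0 := by
    have := congrFun h1 0
    simpa [val, h2.1, h2.2] using this
  exact Prod.ext h2.1 (Prod.ext h2.2 h3)

/-- the equivalence -/
def PE {p : Fin 6 → ℂ × ℂ} (h : Function.Injective (PM p)) : (ℂ × ℂ × ℝ) ≃L[ℝ] (Fin 5 → ℝ) :=
  (LinearMap.linearEquivOfInjective (PM p : (ℂ × ℂ × ℝ) →ₗ[ℝ] (Fin 5 → ℝ)) h (by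
    simp [Module.finrank_prod, Complex.finrank_real_complex])).toContinuousLinearEquiv

theorem PE_coe {p : Fin 6 → ℂ × ℂ} (h : Function.Injective (PM p)) :
    ((PE h : (ℂ × ℂ × ℝ) ≃L[ℝ] (Fin 5 → ℝ)) : (ℂ × ℂ × ℝ) →L[ℝ] (Fin 5 → ℝ)) = PM p := by
  refine ContinuousLinearMap.ext fun v => ?_
  rfl

/-- **the flat frame**: `(a, c, r)` as a linear function of the six numbers -/
def flat (p : Fin 6 → ℂ × ℂ) : (Fin 6 → ℝ) →L[ℝ] (ℂ × ℂ × ℝ) := (PM p).inverse.comp Q5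

theorem flat_spec {p : Fin 6 → ℂ × ℂ} (hp : alt p = 0)
    (hinj : ∀ a c : ℂ, ∀ r : ℝ, (∀ j, (a * (p j).1 + c * (p j).2).re + r = 0) → a = 0 ∧ c = 0)
    {ξ : Fin 6 → ℝ} (hξ : alt ξ = 0) (j : Fin 6) :
    ((flat p ξ).1 * (p j).1 + (flat p ξ).2.1 * (p j).2).re + (flat p ξ).2.2 = ξ j := by
  have h := PM_injective hp hinj
  have h1 : (fun j => val (p j) (flat p ξ)) = ξ := by
    refine eq_of_alt (alt_val hp _) hξ fun i => ?_
    have h2 : PM p (flat p ξ) = Q5 ξ := by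
      rw [flat, ContinuousLinearMap.comp_apply, ← PE_coe h, ContinuousLinearMap.inverse_equiv]
      exact (PE h).apply_symm_apply _
    exact congrFun h2 i
  exact congrFun h1 j

theorem flat_unique {p : Fin 6 → ℂ × ℂ} (hp : alt p = 0)
    (hinj : ∀ a c : ℂ, ∀ r : ℝ, (∀ j, (a * (p j).1 + c * (p j).2).re + r = 0) → a = 0 ∧ c = 0)
    {ξ : Fin 6 → ℝ} {v : ℂ × ℂ × ℝ}
    (hv : ∀ j, (v.1 * (p j).1 + v.2.1 * (p j).2).re + v.2.2 = ξ j) : flat p ξ = v := by
  have h := PM_injective hp hinj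
  apply h
  have h2 : PM p (flat p ξ) = Q5 ξ := by
    rw [flat, ContinuousLinearMap.comp_apply, ← PE_coe h, ContinuousLinearMap.inverse_equiv]
    exact (PE h).apply_symm_apply _
  rw [h2]
  ext i
  exact (hv i.castSucc).symm

theorem contDiffOn_flat {E : Type*} [NormedAddCommGroup E] [NormedSpace ℝ E] {O : Set E}
    {p : E → Fin 6 → ℂ × ℂ} (hs : ∀ j, ContDiffOn ℝ ∞ (fun b => p b j) O)
    (hp : ∀ b ∈ O, alt (p b) = 0)
    (hinj : ∀ b ∈ O, ∀ a c : ℂ, ∀ r : ℝ, (∀ j, (a * (p b j).1 + c * (p b j).2).re + r = 0) →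
      a = 0 ∧ c = 0) : ContDiffOn ℝ ∞ (fun b => flat (p b)) O := by
  have h1 : ContDiffOn ℝ ∞ (fun b => PM (p b)) O := by
    rw [contDiffOn_clm_apply]
    intro v
    rw [contDiffOn_pi]
    intro i
    have e1 : ContDiffOn ℝ ∞ (fun b => (p b i.castSucc).1) O := (hs i.castSucc).fst
    have e2 : ContDiffOn ℝ ∞ (fun b => (p b i.castSucc).2) O := (hs i.castSucc).snd
    have e3 : ContDiffOn ℝ ∞ (fun b => v.1 * (p b i.castSucc).1 + v.2.1 * (p b i.castSucc).2) O :=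
      (contDiffOn_const.mul e1).add (contDiffOn_const.mul e2)
    exact (Complex.reCLM.contDiff.comp_contDiffOn e3).add contDiffOn_const
  intro b hb
  have h := PM_injective (hp b hb) (hinj b hb)
  have h2 : ContDiffAt ℝ ∞ ContinuousLinearMap.inverse (PM (p b)) := by
    rw [← PE_coe h]
    exact contDiffAt_map_inverse (PE h)
  have h3 : ContDiffWithinAt ℝ ∞ (fun b => (PM (p b)).inverse) O b :=
    ContDiffAt.comp_contDiffWithinAt (g := ContinuousLinearMap.inverse)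
      (f := fun b => PM (p b)) b h2 (h1 b hb)
  exact h3.clm_comp contDiffWithinAt_const

end

end Vale.Agent.P273.H908
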