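import Vale.Agent.P273.H908.IdU
import Vale.Agent.P273.H722.Theta4
import Vale.Agent.P273.H630.VertIn
import Vale.Agent.P273.H580.The

/-! P273 / H908, LIM-G [D], part 4: the flat frame at `rootsL y α` is the solution of the linear
system of helper722. -/

namespace Vale.Agent.P273.H908

open Complex Set Filter Topology
open scoped Real
open Vale.Agent.P273.H517 (cm kp)
open Vale.Agent.P273.H95 (ctr IsCl)
open Vale.Agent.P273.H630 (ell0 eps0 ysh D0 I0 af0 cc)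
open Vale.Agent.P273.H562 (rootsL bt xe)
open Vale.Agent.P273.H722 (ib ep)
open Vale.Agent.P273.H803 (BaseOk)
open Vale.Agent.P273.H580 (fl fl_unique theStms mkA mkA_apply AX cX pX)

noncomputable section

theorem bt_sum {ξ : Fin 6 → ℝ} (h : IsCl ξ) : ∑ k, bt ξ k = 0 := by
  have h1 := H580.isCl_alt h
  simp only [alt] at h1
  rw [Fin.sum_univ_three]
  simp only [bt, Matrix.cons_val]
  linarith

theorem ib_apply (β : Fin 3 → ℝ) (k : Fin 3) : ib β k = I * (β k : ℂ) / (π : ℂ) := rfl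

theorem cc_sum {ξ : Fin 6 → ℝ} (h : IsCl ξ) {y α : Fin 3 → ℝ} {m : ℝ}
    (hB : D0.Big m (ysh y, α)) : ∑ k, cc ξ y α k = 0 := by
  have h1 := (H722.KapData.isSol hB (xe ξ) (bt ξ)).2
  have h2 := bt_sum h
  rw [Fin.sum_univ_three] at h1 h2 ⊢
  simp only [cc, ib_apply]
  have h3 : ((D0.xx (xe ξ) (bt ξ) (ysh y, α) 0 : ℝ) : ℂ) + (D0.xx (xe ξ) (bt ξ) (ysh y, α) 1 : ℝ) +
      (D0.xx (xe ξ) (bt ξ) (ysh y, α) 2 : ℝ) = 0 := by
    exact_mod_cast h1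
  have h4 : ((bt ξ 0 : ℝ) : ℂ) + (bt ξ 1 : ℝ) + (bt ξ 2 : ℝ) = 0 := by exact_mod_cast h2
  linear_combination h3 + I / π * h4

theorem ib_eq (ξ : Fin 6 → ℝ) (k : Fin 3) : ib (bt ξ) k = ((bt ξ k / π : ℝ) : ℂ) * I := by
  rw [ib_apply]; push_cast; ring

theorem cc_re (ξ : Fin 6 → ℝ) (y α : Fin 3 → ℝ) (k : Fin 3) :
    (cc ξ y α k).re = D0.xx (xe ξ) (bt ξ) (ysh y, α) k := by
  show ((D0.xx (xe ξ) (bt ξ) (ysh y, α) k : ℂ) + ib (bt ξ) k).re = _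
  rw [ib_eq, add_re, ofReal_re, re_ofReal_mul, I_re, mul_zero, add_zero]

theorem cc_im (ξ : Fin 6 → ℝ) (y α : Fin 3 → ℝ) (k : Fin 3) :
    (cc ξ y α k).im = bt ξ k / π := by
  show ((D0.xx (xe ξ) (bt ξ) (ysh y, α) k : ℂ) + ib (bt ξ) k).im = _
  rw [ib_eq, add_im, ofReal_im, im_ofReal_mul, I_im, mul_one, zero_add]

/-- the equation of the pair `k`, in complex form -/
theorem system {ξ : Fin 6 → ℝ} {y α : Fin 3 → ℝ} {m : ℝ} (hB : D0.Big m (ysh y, α)) (k : Fin 3) :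
    (D0.kap (eps0 y α) (cc ξ y α) k +
      cc ξ y α k * (((-(ysh y k) / 2 : ℝ) : ℂ) + ((α k / 2 : ℝ) : ℂ) * I)).re +
      D0.CC (xe ξ) (bt ξ) (ysh y, α) = xe ξ k := by
  have h1 := (H722.KapData.isSol hB (xe ξ) (bt ξ)).1 k
  have e1 : H722.KapData.MM ((ysh y, α) : H722.Pa (Fin 3)) k = ysh y k / 2 := rfl
  have e2 : D0.KK (ysh y, α) (D0.xx (xe ξ) (bt ξ) (ysh y, α)) k =
      (D0.kap (eps0 y α) (fun l => (D0.xx (xe ξ) (bt ξ) (ysh y, α) l : ℂ)) k).re := by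
    rw [H630.eps0_eq]
    exact H722.RK_apply _ _ _
  have e3 : D0.gg (xe ξ) (bt ξ) (ysh y, α) k = xe ξ k + bt ξ k * α k / (2 * Real.pi) -
      (D0.kap (eps0 y α) (ib (bt ξ)) k).re := by
    rw [H630.eps0_eq]
    rfl
  have e4 : cc ξ y α = (fun l => (D0.xx (xe ξ) (bt ξ) (ysh y, α) l : ℂ)) + ib (bt ξ) := rfl
  have e5 : D0.kap (eps0 y α) (cc ξ y α) k =
      D0.kap (eps0 y α) (fun l => (D0.xx (xe ξ) (bt ξ) (ysh y, α) l : ℂ)) k +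
      D0.kap (eps0 y α) (ib (bt ξ)) k := by
    rw [e4, map_add, Pi.add_apply]
  have e6 : (cc ξ y α k * (((-(ysh y k) / 2 : ℝ) : ℂ) + ((α k / 2 : ℝ) : ℂ) * I)).re =
      -(ysh y k / 2) * D0.xx (xe ξ) (bt ξ) (ysh y, α) k - bt ξ k * α k / (2 * Real.pi) := by
    rw [mul_re, cc_re, cc_im]
    simp only [add_re, add_im, ofReal_re, ofReal_im, re_ofReal_mul, im_ofReal_mul, I_re, I_im]
    ring
  rw [e1, e2, e3] at h1
  rw [add_re, e5, e6, add_re]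
  linarith

/-- **the flat frame at the theta configurations** -/
theorem fl_theta' {ξ : Fin 6 → ℝ} (hξ : IsCl ξ) {y α : Fin 3 → ℝ} {m : ℝ}
    (hB : D0.Big m (ysh y, α)) (hρ : ‖eps0 y α‖ < D0.ρ) (hα : RgA α) :
    fl ξ (rootsL y α) = (af0 (eps0 y α) (cc ξ y α) 0, af0 (eps0 y α) (cc ξ y α) 1,
      D0.CC (xe ξ) (bt ξ) (ysh y, α)) := by
  have hSm : H517.Sm (eps0 y α) := H630.sm_of_rad (he := H630.sep_ctr) (ell := ell0) hρ.le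
  have hmem := rootsL_mem' hSm hα
  have hc : ∀ k, af0 (eps0 y α) (cc ξ y α) 0 * cm ctr (eps0 y α) 0 k +
      af0 (eps0 y α) (cc ξ y α) 1 * cm ctr (eps0 y α) 1 k = cc ξ y α k := fun k =>
    H630.af_cm_theta (he := H630.sep_ctr) (ell := ell0) hρ (cc_sum hξ hB) k
  have hk : ∀ k, af0 (eps0 y α) (cc ξ y α) 0 * kp ctr (eps0 y α) ell0 0 k +
      af0 (eps0 y α) (cc ξ y α) 1 * kp ctr (eps0 y α) ell0 1 k =
      D0.kap (eps0 y α) (cc ξ y α) k := fun k =>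
    (H630.kap_theta (he := H630.sep_ctr) (ell := ell0) (eps0 y α) (cc ξ y α) k).symm
  refine fl_unique theStms hmem fun j => ?_
  have key : ∀ k, mkA (af0 (eps0 y α) (cc ξ y α) 0, af0 (eps0 y α) (cc ξ y α) 1,
      D0.CC (xe ξ) (bt ξ) (ysh y, α)) (pX (rootsL y α) (jr k)) +
      D0.CC (xe ξ) (bt ξ) (ysh y, α) = xe ξ k := by
    intro k
    rw [mkA_apply, ← system (ξ := ξ) hB k]
    congr 2
    show af0 (eps0 y α) (cc ξ y α) 0 * H857.piX 0 (jr k) (rootsL y α) +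
      af0 (eps0 y α) (cc ξ y α) 1 * H857.piX 1 (jr k) (rootsL y α) = _
    rw [piX_right' hSm hα (by norm_num) k, piX_right' hSm hα le_rfl k, ← hk k, ← hc k]
    ring
  have key2 : ∀ k, mkA (af0 (eps0 y α) (cc ξ y α) 0, af0 (eps0 y α) (cc ξ y α) 1,
      D0.CC (xe ξ) (bt ξ) (ysh y, α)) (pX (rootsL y α) (jl k)) +
      D0.CC (xe ξ) (bt ξ) (ysh y, α) = xe ξ k - bt ξ k := by
    intro k
    have h1 : (cc ξ y α k * (π * I)).re = -bt ξ k := by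
      have : cc ξ y α k * (π * I) = (π : ℂ) * (cc ξ y α k * I) := by ring
      rw [this, re_ofReal_mul, mul_I_re, cc_im]
      field_simp
    rw [mkA_apply, ← system (ξ := ξ) hB k]
    have h2 : (((af0 (eps0 y α) (cc ξ y α) 0, af0 (eps0 y α) (cc ξ y α) 1,
        D0.CC (xe ξ) (bt ξ) (ysh y, α)) : ℂ × ℂ × ℝ).1 * (pX (rootsL y α) (jl k)).1 +
        ((af0 (eps0 y α) (cc ξ y α) 0, af0 (eps0 y α) (cc ξ y α) 1,
        D0.CC (xe ξ) (bt ξ) (ysh y, α)) : ℂ × ℂ × ℝ).2.1 * (pX (rootsL y α) (jl k)).2) =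
        D0.kap (eps0 y α) (cc ξ y α) k +
          cc ξ y α k * (((-(ysh y k) / 2 : ℝ) : ℂ) + ((α k / 2 : ℝ) : ℂ) * I) +
          cc ξ y α k * (π * I) := by
      show af0 (eps0 y α) (cc ξ y α) 0 * H857.piX 0 (jl k) (rootsL y α) +
        af0 (eps0 y α) (cc ξ y α) 1 * H857.piX 1 (jl k) (rootsL y α) = _
      rw [piX_left' hSm hα (by norm_num) k, piX_left' hSm hα le_rfl k, ← hk k, ← hc k]
      ring
    rw [h2, add_re, h1]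
    ring
  show mkA (af0 (eps0 y α) (cc ξ y α) 0, af0 (eps0 y α) (cc ξ y α) 1,
      D0.CC (xe ξ) (bt ξ) (ysh y, α)) (pX (rootsL y α) j) +
      D0.CC (xe ξ) (bt ξ) (ysh y, α) = ξ j
  rcases eq_jl_or_jr j with hj | hj
  · rw [hj, key2]
    fin_cases j <;> simp [jl, pr, xe, bt]
  · rw [hj, key]
    fin_cases j <;> simp [jr, pr, xe] at hj ⊢

/-- the coefficients and the constant -/
theorem AX_theta' {ξ : Fin 6 → ℝ} (hξ : IsCl ξ) {y α : Fin 3 → ℝ} {m : ℝ}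
    (hB : D0.Big m (ysh y, α)) (hρ : ‖eps0 y α‖ < D0.ρ) (hα : RgA α)
    (u v : ℂ) : AX ξ (rootsL y α) (u, v) =
      (af0 (eps0 y α) (cc ξ y α) 0 * u + af0 (eps0 y α) (cc ξ y α) 1 * v).re := by
  rw [AX, fl_theta' hξ hB hρ hα, mkA_apply]

theorem cX_theta' {ξ : Fin 6 → ℝ} (hξ : IsCl ξ) {y α : Fin 3 → ℝ} {m : ℝ}
    (hB : D0.Big m (ysh y, α)) (hρ : ‖eps0 y α‖ < D0.ρ) (hα : RgA α) :
    cX ξ (rootsL y α) = D0.CC (xe ξ) (bt ξ) (ysh y, α) := by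
  rw [cX, fl_theta' hξ hB hρ hα]

/-- **the flat frame at the theta configurations** -/
theorem fl_theta {ξ : Fin 6 → ℝ} (hξ : IsCl ξ) {y α : Fin 3 → ℝ} {m : ℝ}
    (hB : D0.Big m (ysh y, α)) (hρ : ‖eps0 y α‖ < D0.ρ) (hα : ∀ k, -7 ≤ α k ∧ α k ≤ 1) :
    fl ξ (rootsL y α) = (af0 (eps0 y α) (cc ξ y α) 0, af0 (eps0 y α) (cc ξ y α) 1,
      D0.CC (xe ξ) (bt ξ) (ysh y, α)) := fl_theta' hξ hB hρ (rgA_of hα)

theorem AX_theta {ξ : Fin 6 → ℝ} (hξ : IsCl ξ) {y α : Fin 3 → ℝ} {m : ℝ}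
    (hB : D0.Big m (ysh y, α)) (hρ : ‖eps0 y α‖ < D0.ρ) (hα : ∀ k, -7 ≤ α k ∧ α k ≤ 1)
    (u v : ℂ) : AX ξ (rootsL y α) (u, v) =
      (af0 (eps0 y α) (cc ξ y α) 0 * u + af0 (eps0 y α) (cc ξ y α) 1 * v).re :=
  AX_theta' hξ hB hρ (rgA_of hα) u v

theorem cX_theta {ξ : Fin 6 → ℝ} (hξ : IsCl ξ) {y α : Fin 3 → ℝ} {m : ℝ}
    (hB : D0.Big m (ysh y, α)) (hρ : ‖eps0 y α‖ < D0.ρ) (hα : ∀ k, -7 ≤ α k ∧ α k ≤ 1) :
    cX ξ (rootsL y α) = D0.CC (xe ξ) (bt ξ) (ysh y, α) := cX_theta' hξ hB hρ (rgA_of hα)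

/-- **the identification at theta**, all configurations with long necks -/
theorem exists_theta : ∃ N₀ : ℝ, 1 ≤ N₀ ∧ ∀ y α, BaseOk N₀ y α →
    rootsL y α ∈ H681.XX ∧ H517.Sm (eps0 y α) ∧ ∀ ξ, IsCl ξ →
      (∀ u v : ℂ, AX ξ (rootsL y α) (u, v) =
        (af0 (eps0 y α) (cc ξ y α) 0 * u + af0 (eps0 y α) (cc ξ y α) 1 * v).re) ∧
      cX ξ (rootsL y α) = D0.CC (xe ξ) (bt ξ) (ysh y, α) := by
  obtain ⟨N₀, h1, h2⟩ := H630.exists_N0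
  refine ⟨N₀, h1, fun y α hy => ?_⟩
  obtain ⟨hρ, _, hB⟩ := h2 y α hy.1
  have hSm : H517.Sm (eps0 y α) := H630.sm_of_rad (he := H630.sep_ctr) (ell := ell0) hρ.le
  exact ⟨rootsL_mem hSm hy.2, hSm, fun ξ hξ =>
    ⟨AX_theta hξ hB hρ hy.2, cX_theta hξ hB hρ hy.2⟩⟩

/-- the same on an open set of parameters -/
theorem exists_theta' : ∃ N₀ : ℝ, 1 ≤ N₀ ∧ ∀ y α : Fin 3 → ℝ, (∀ k, N₀ ≤ y k) → RgA α →
    rootsL y α ∈ H681.XX ∧ H517.Sm (eps0 y α) ∧ ∀ ξ, IsCl ξ →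
      (∀ u v : ℂ, AX ξ (rootsL y α) (u, v) =
        (af0 (eps0 y α) (cc ξ y α) 0 * u + af0 (eps0 y α) (cc ξ y α) 1 * v).re) ∧
      cX ξ (rootsL y α) = D0.CC (xe ξ) (bt ξ) (ysh y, α) := by
  obtain ⟨N₀, h1, h2⟩ := H630.exists_N0
  refine ⟨N₀, h1, fun y α hy hα => ?_⟩
  obtain ⟨hρ, _, hB⟩ := h2 y α hy
  have hSm : H517.Sm (eps0 y α) := H630.sm_of_rad (he := H630.sep_ctr) (ell := ell0) hρ.le
  exact ⟨rootsL_mem' hSm hα, hSm, fun ξ hξ =>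
    ⟨AX_theta' hξ hB hρ hα, cX_theta' hξ hB hρ hα⟩⟩

end

end Vale.Agent.P273.H908
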