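import Mathlib

/-! P273 / H908: the square root on the plane cut along the downward vertical half line. -/

namespace Vale.Agent.P273.H908

open Complex Set Filter Topology
open scoped ContDiff Real

noncomputable section

/-- the square root on the plane cut along `-i [0, oo)` -/
def rt (z : ℂ) : ℂ := exp (I * (π / 4)) * (-I * z) ^ (1 / 2 : ℂ)

/-- the plane without the closed half line `-i [0, oo)` -/
def Sl : Set ℂ := {z | 0 < z.im ∨ z.re ≠ 0}

theorem mem_Sl {z : ℂ} : z ∈ Sl ↔ -I * z ∈ slitPlane := by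
  simp [Sl, Complex.mem_slitPlane_iff]

theorem isOpen_Sl : IsOpen Sl :=
  (isOpen_lt continuous_const continuous_im).union
    (isOpen_ne_fun continuous_re continuous_const)

theorem Sl_ne_zero {z : ℂ} (hz : z ∈ Sl) : z ≠ 0 := by
  rintro rfl
  simp [Sl] at hz

theorem mem_Sl_of_re {z : ℂ} (hz : z.re ≠ 0) : z ∈ Sl := Or.inr hz

theorem mul_mem_Sl {z : ℂ} (hz : z ∈ Sl) {t : ℝ} (ht : 0 < t) : (t : ℂ) * z ∈ Sl := by
  rcases hz with h | h
  · left; simpa using mul_pos ht h
  · right; simpa using ⟨ht.ne', h⟩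

theorem exp_quarter_sq : exp (I * (π / 4)) ^ 2 = I := by
  rw [← exp_nat_mul]
  have : ((2 : ℕ) : ℂ) * (I * (π / 4)) = π / 2 * I := by push_cast; ring
  rw [this, exp_pi_div_two_mul_I]

theorem half_sq (z : ℂ) : (z ^ (1 / 2 : ℂ)) ^ 2 = z := by
  have := Complex.cpow_nat_inv_pow z (n := 2) (by norm_num)
  simpa using this

theorem rt_sq (z : ℂ) : rt z ^ 2 = z := by
  rw [rt, mul_pow, exp_quarter_sq, half_sq]
  linear_combination (-z) * I_sq

@[simp] theorem rt_zero : rt 0 = 0 := by
  have := rt_sq 0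
  exact pow_eq_zero_iff (n := 2) (by norm_num) |>.1 this

theorem rt_ne_zero {z : ℂ} (hz : z ≠ 0) : rt z ≠ 0 := by
  intro h
  apply hz
  rw [← rt_sq z, h]; ring

theorem norm_rt (z : ℂ) : ‖rt z‖ = Real.sqrt ‖z‖ := by
  rw [eq_comm, Real.sqrt_eq_iff_mul_self_eq (norm_nonneg _) (norm_nonneg _), ← norm_mul,
    ← pow_two, rt_sq]

theorem differentiableAt_rt {z : ℂ} (hz : z ∈ Sl) : DifferentiableAt ℂ rt z := by
  have h1 : DifferentiableAt ℂ (fun z : ℂ => -I * z) z := by fun_prop
  exact (h1.cpow_const (c := (1 / 2 : ℂ)) (mem_Sl.1 hz)).const_mul _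

theorem hasDerivAt_rt {z : ℂ} (hz : z ∈ Sl) : HasDerivAt rt (1 / (2 * rt z)) z := by
  have h1 := (differentiableAt_rt hz).hasDerivAt
  have h2 : HasDerivAt (fun z => rt z ^ 2) (2 * rt z * deriv rt z) z := by
    simpa using h1.fun_pow 2
  have h3 : HasDerivAt (fun z => rt z ^ 2) 1 z := by
    simpa only [rt_sq] using hasDerivAt_id' z
  have h4 := h2.unique h3
  have h5 := rt_ne_zero (Sl_ne_zero hz)
  have h6 : 1 / (2 * rt z) = deriv rt z := by
    rw [div_eq_iff (mul_ne_zero two_ne_zero h5)]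
    linear_combination -h4
  rw [h6]
  exact h1

theorem continuousAt_rt {z : ℂ} (hz : z ∈ Sl) : ContinuousAt rt z :=
  (differentiableAt_rt hz).continuousAt

theorem continuousAt_rt_zero : ContinuousAt rt 0 := by
  rw [ContinuousAt, rt_zero, tendsto_zero_iff_norm_tendsto_zero]
  simp only [norm_rt]
  have : ContinuousAt (fun z : ℂ => Real.sqrt ‖z‖) 0 := by fun_prop
  simpa [ContinuousAt] using this

theorem contDiffAt_rt {z : ℂ} (hz : z ∈ Sl) {n : WithTop ℕ∞} : ContDiffAt ℂ n rt z := by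
  have h : AnalyticAt ℂ rt z := by
    apply DifferentiableOn.analyticAt (s := Sl) _ (isOpen_Sl.mem_nhds hz)
    exact fun w hw => (differentiableAt_rt hw).differentiableWithinAt
  exact h.contDiffAt

theorem contDiffOn_rt_real {n : WithTop ℕ∞} : ContDiffOn ℝ n rt Sl :=
  fun _ hz => (contDiffAt_rt hz).restrict_scalars ℝ |>.contDiffWithinAt

theorem rt_mul_pos {t : ℝ} (ht : 0 ≤ t) (z : ℂ) : rt (t * z) = Real.sqrt t * rt z := by
  rcases ht.eq_or_lt with rfl | ht
  · simp
  rcases eq_or_ne z 0 with rfl | hz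
  · simp
  have h0 : -I * z ≠ 0 := by simpa using hz
  have h1 : -I * ((t : ℂ) * z) = (t : ℂ) * (-I * z) := by ring
  have ht' : (t : ℂ) ≠ 0 := by exact_mod_cast ht.ne'
  rw [rt, rt, h1, cpow_def_of_ne_zero (mul_ne_zero ht' h0), cpow_def_of_ne_zero h0,
    log_ofReal_mul ht h0, add_mul, exp_add]
  have h2 : exp ((Real.log t : ℂ) * (1 / 2)) = (Real.sqrt t : ℂ) := by
    rw [Real.sqrt_eq_rpow, Real.rpow_def_of_pos ht]
    push_cast
    norm_num
  rw [h2]
  ring

theorem rt_mul_rt_neg {d : ℂ} (hd : 0 < d.re) : rt d * rt (-d) = I * d := by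
  have hd0 : d ≠ 0 := by rintro rfl; simp at hd
  have harg : |arg d| < π / 2 := Complex.abs_arg_lt_pi_div_two_iff.2 (Or.inl hd)
  rw [abs_lt] at harg
  have e1 : log (-I * d) = -(π / 2) * I + log d := by
    have : log (-I * d) = log (-I) + log d := by
      rw [Complex.log_mul_eq_add_log_iff (by simp) hd0, arg_neg_I]
      constructor <;> linarith [Real.pi_pos]
    rw [this, log_neg_I]
  have e2 : log (-I * -d) = (π / 2) * I + log d := by
    have h0 : -I * -d = I * d := by ring
    have : log (I * d) = log I + log d := by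
      rw [Complex.log_mul_eq_add_log_iff (by simp) hd0, arg_I]
      constructor <;> linarith [Real.pi_pos]
    rw [h0, this, log_I]
  rw [rt, rt, cpow_def_of_ne_zero (by simpa using hd0), cpow_def_of_ne_zero (by simpa using hd0),
    e1, e2]
  have e3 : exp ((-(π / 2) * I + log d) * (1 / 2)) * exp (((π / 2) * I + log d) * (1 / 2)) = d := by
    rw [← exp_add]
    have : (-(π / 2) * I + log d) * (1 / 2) + ((π / 2) * I + log d) * (1 / 2) = log d := by ring
    rw [this, exp_log hd0]
  have e4 := exp_quarter_sq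
  linear_combination (exp (I * (π / 4)) ^ 2) * e3 + d * e4

end

end Vale.Agent.P273.H908
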