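import Vale.Agent.P273.H908.Id2
import Vale.Agent.P273.H857.All1
import Vale.Agent.P273.H863.GPRoot
import Vale.Agent.P273.H233.GPINF
import Vale.Agent.P273.H630.D0
import Vale.Agent.P273.H562.AsyDefs

/-! P273 / H908, LIM-G [D], part 3: the half periods at `rootsL y α`, without hypotheses. -/

namespace Vale.Agent.P273.H908

open Complex Set Filter Topology
open scoped Real
open Vale.Agent.P273.H598 (lg)
open Vale.Agent.P273.H517 (cm kp kpf)
open Vale.Agent.P273.H95 (ctr)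
open Vale.Agent.P273.H630 (ell0 eps0 ysh)
open Vale.Agent.P273.H562 (rootsL)

noncomputable section

/-- the statements used in `Id2` hold -/
theorem stms : Stms where
  hol := H857.stmHOL
  root := H863.stmROOT_of H857.stmEX H857.stmINV H857.stmHOL
  flipR := H857.stmFLIPR
  flipL := H857.stmFLIPL
  inf := H233.Inf.stmINF H857.stmINV H857.stmHOL

/-- the three centres -/
def ectr (k : Fin 3) : ℝ := 2 * (k : ℕ) + 3 / 2

theorem eC_ectr : eC ectr = ctr := by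
  funext k
  simp [eC, ectr, ctr]

theorem spR_ectr : SpR ectr := by
  constructor
  · show 2 * ((0 : ℕ) : ℝ) + 3 / 2 + 2 ≤ 2 * ((1 : ℕ) : ℝ) + 3 / 2
    norm_num
  · show 2 * ((1 : ℕ) : ℝ) + 3 / 2 + 2 ≤ 2 * ((2 : ℕ) : ℝ) + 3 / 2
    norm_num

/-- the half distances -/
def dL (y α : Fin 3 → ℝ) : Fin 3 → ℂ := fun k =>
  (1 / 16 : ℂ) * Complex.exp ((-(y k : ℂ) + (α k : ℂ) * Complex.I) / 2)

theorem rootsL_eq (y α : Fin 3 → ℝ) : rootsL y α = thp ectr (dL y α) := by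
  have h0 : (ectr 0 : ℂ) = 3 / 2 := by
    show ((2 * ((0 : ℕ) : ℝ) + 3 / 2 : ℝ) : ℂ) = 3 / 2
    push_cast; ring
  have h1 : (ectr 1 : ℂ) = 7 / 2 := by
    show ((2 * ((1 : ℕ) : ℝ) + 3 / 2 : ℝ) : ℂ) = 7 / 2
    push_cast; ring
  have h2 : (ectr 2 : ℂ) = 11 / 2 := by
    show ((2 * ((2 : ℕ) : ℝ) + 3 / 2 : ℝ) : ℂ) = 11 / 2
    push_cast; ring
  unfold rootsL H828.th thp
  rw [h0, h1, h2]
  rfl

theorem dsq_dL (y α : Fin 3 → ℝ) : dsq (dL y α) = eps0 y α := by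
  funext k
  simp only [dsq, dL, eps0]
  rw [mul_pow, ← Complex.exp_nat_mul]
  congr 2
  push_cast
  ring

theorem dL_polar (y α : Fin 3 → ℝ) (k : Fin 3) :
    dL y α k = ((1 / 16 * Real.exp (-(y k) / 2) : ℝ) : ℂ) * Complex.exp ((α k / 2 : ℝ) * I) := by
  unfold dL
  have : (-(y k : ℂ) + (α k : ℂ) * I) / 2 = ((-(y k) / 2 : ℝ) : ℂ) + ((α k / 2 : ℝ) : ℂ) * I := by
    push_cast; ring
  rw [this, Complex.exp_add, ← Complex.ofReal_exp]
  push_cast
  ring

theorem dL_re_im (y α : Fin 3 → ℝ) (k : Fin 3) :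
    (dL y α k).re = 1 / 16 * Real.exp (-(y k) / 2) * Real.cos (α k / 2) ∧
    (dL y α k).im = 1 / 16 * Real.exp (-(y k) / 2) * Real.sin (α k / 2) := by
  rw [dL_polar, re_ofReal_mul, im_ofReal_mul, exp_ofReal_mul_I_re, exp_ofReal_mul_I_im]
  exact ⟨rfl, rfl⟩

/-- the base angles for which the theta configuration is in `XX` -/
def RgA (α : Fin 3 → ℝ) : Prop := ∀ k, -(3 * π) < α k ∧ α k < π

theorem rgA_of {α : Fin 3 → ℝ} (hα : ∀ k, -7 ≤ α k ∧ α k ≤ 1) : RgA α := fun k => by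
  have hpi := Real.pi_gt_three
  exact ⟨by linarith [(hα k).1], by linarith [(hα k).2]⟩

theorem isOpen_rgA : IsOpen {α : Fin 3 → ℝ | RgA α} := by
  have h : {α : Fin 3 → ℝ | RgA α} = ⋂ k, {α : Fin 3 → ℝ | -(3 * π) < α k ∧ α k < π} := by
    ext α
    simp [RgA]
  rw [h]
  exact isOpen_iInter_of_finite fun k =>
    (isOpen_lt continuous_const (continuous_apply k)).inter
      (isOpen_lt (continuous_apply k) continuous_const)

/-- the base angles of the region avoid the cut -/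
theorem od_dL' {y α : Fin 3 → ℝ} (hα : RgA α) : Od (dL y α) := by
  intro k h
  obtain ⟨h1, h2⟩ := dL_re_im y α k
  have hr : 0 < 1 / 16 * Real.exp (-(y k) / 2) := by positivity
  rw [h1] at h
  have hc : Real.cos (α k / 2) = 0 := by
    rcases mul_eq_zero.1 h with h' | h'
    · exact absurd h' hr.ne'
    · exact h'
  obtain ⟨ha, hb⟩ := hα k
  have hpi := Real.pi_gt_three
  rcases lt_trichotomy (α k / 2) (-(π / 2)) with h' | h' | h'
  · have h3 : 0 < Real.cos (α k / 2 + π) := by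
      refine Real.cos_pos_of_mem_Ioo ⟨?_, ?_⟩
      · linarith
      · linarith
    rw [Real.cos_add_pi, hc] at h3
    linarith
  · rw [h2, h', Real.sin_neg, Real.sin_pi_div_two]
    linarith
  · have h3 : 0 < Real.cos (α k / 2) := Real.cos_pos_of_mem_Ioo ⟨h', by linarith⟩
    rw [hc] at h3
    exact absurd h3 (lt_irrefl _)

/-- the logarithm of the half distance -/
theorem lg_neg_dL' {y α : Fin 3 → ℝ} (hα : RgA α) (k : Fin 3) :
    lg (-dL y α k) = ((-(ysh y k) / 2 : ℝ) : ℂ) + ((α k / 2 : ℝ) : ℂ) * I + π * I := by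
  have hr : 0 < 1 / 16 * Real.exp (-(y k) / 2) := by positivity
  have h1 : -I * -dL y α k = ((1 / 16 * Real.exp (-(y k) / 2) : ℝ) : ℂ) *
      Complex.exp (((α k / 2 + π / 2 : ℝ) : ℂ) * I) := by
    rw [dL_polar]
    have : (((α k / 2 + π / 2 : ℝ) : ℂ) * I) = ((α k / 2 : ℝ) : ℂ) * I + π / 2 * I := by
      push_cast; ring
    rw [this, Complex.exp_add, exp_pi_div_two_mul_I]
    ring
  obtain ⟨ha, hb⟩ := hα k
  have hpi := Real.pi_gt_three
  have h2 : log (Complex.exp (((α k / 2 + π / 2 : ℝ) : ℂ) * I)) =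
      ((α k / 2 + π / 2 : ℝ) : ℂ) * I := by
    have e : (((α k / 2 + π / 2 : ℝ) : ℂ) * I).im = α k / 2 + π / 2 := by
      rw [im_ofReal_mul, I_im, mul_one]
    refine Complex.log_exp ?_ ?_
    · rw [e]; linarith
    · rw [e]; linarith
  have h3 : Real.log (1 / 16 * Real.exp (-(y k) / 2)) = -(ysh y k) / 2 := by
    rw [Real.log_mul (by norm_num) (Real.exp_pos _).ne', Real.log_exp, ysh, one_div, Real.log_inv]
    ring
  rw [lg, h1, log_ofReal_mul hr (Complex.exp_ne_zero _), h2, h3]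
  push_cast
  ring

theorem ell_ectr {k l : Fin 3} (h : l ≠ k) : ell ectr k l = ell0 k l := by
  have h1 : eC ectr k - eC ectr l = ((2 * ((k : ℝ) - (l : ℝ)) : ℝ) : ℂ) := by
    rw [eC_ectr, H630.ctr_sub]
  have h2 : ‖ctr k - ctr l‖ = |2 * ((k : ℝ) - (l : ℝ))| := by
    rw [H630.ctr_sub, Complex.norm_real, Real.norm_eq_abs]
  unfold ell ell0
  rw [h1, h2]
  rcases lt_or_gt_of_ne h with h' | h'
  · have h3 : (0 : ℝ) < 2 * ((k : ℝ) - (l : ℝ)) := by
      have : (l : ℕ) < (k : ℕ) := h'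
      have : ((l : ℕ) : ℝ) < ((k : ℕ) : ℝ) := by exact_mod_cast this
      linarith
    rw [if_neg (not_lt.2 h'.le), lg_pos h3, abs_of_pos h3, add_zero]
  · have h3 : 2 * ((k : ℝ) - (l : ℝ)) < 0 := by
      have : (k : ℕ) < (l : ℕ) := h'
      have : ((k : ℕ) : ℝ) < ((l : ℕ) : ℝ) := by exact_mod_cast this
      linarith
    rw [if_pos h', lg_neg h3, abs_of_neg h3]

theorem kp_ectr (ε : Fin 3 → ℂ) (m : ℕ) (k : Fin 3) :
    kp (eC ectr) ε (ell ectr) m k = kp ctr ε ell0 m k := by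
  rw [eC_ectr]
  unfold kp kpf
  have : ∀ l ∈ Finset.univ.erase k, cm ctr ε m l * (ell ectr k l + log (1 + 1 / 4 / (ctr k - ctr l)))
      = cm ctr ε m l * (ell0 k l + log (1 + 1 / 4 / (ctr k - ctr l))) := fun l hl => by
    rw [ell_ectr (Finset.ne_of_mem_erase hl)]
  rw [Finset.sum_congr rfl this]

theorem sd_dL {y α : Fin 3 → ℝ} (h : H517.Sm (eps0 y α)) : Sd (dL y α) := by
  intro k
  have h1 := h k
  rw [← dsq_dL, dsq, norm_pow] at h1
  exact lt_of_pow_lt_pow_left₀ 2 (by norm_num) h1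

/-- **the half period of the right root of the pair `k`** -/
theorem piX_right' {y α : Fin 3 → ℝ} (h : H517.Sm (eps0 y α)) (hα : RgA α)
    {m : ℕ} (hm : m ≤ 1) (k : Fin 3) :
    H857.piX m (jr k) (rootsL y α) = kp ctr (eps0 y α) ell0 m k +
      cm ctr (eps0 y α) m k * (((-(ysh y k) / 2 : ℝ) : ℂ) + ((α k / 2 : ℝ) : ℂ) * I) := by
  rw [rootsL_eq, piX_jr stms spR_ectr (sd_dL h) (od_dL' hα) hm k, lg_neg_dL' hα, kp_ectr, dsq_dL,
    eC_ectr]
  ring

/-- **the half period of the left root of the pair `k`** -/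
theorem piX_left' {y α : Fin 3 → ℝ} (h : H517.Sm (eps0 y α)) (hα : RgA α)
    {m : ℕ} (hm : m ≤ 1) (k : Fin 3) :
    H857.piX m (jl k) (rootsL y α) = kp ctr (eps0 y α) ell0 m k +
      cm ctr (eps0 y α) m k * (((-(ysh y k) / 2 : ℝ) : ℂ) + ((α k / 2 : ℝ) : ℂ) * I + π * I) := by
  rw [rootsL_eq, piX_jl stms spR_ectr (sd_dL h) (od_dL' hα) hm k, lg_neg_dL' hα, kp_ectr, dsq_dL,
    eC_ectr]

/-- theta configurations are in `XX` -/
theorem rootsL_mem' {y α : Fin 3 → ℝ} (h : H517.Sm (eps0 y α)) (hα : RgA α) :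
    rootsL y α ∈ H681.XX := by
  rw [rootsL_eq]
  intro i j hij hre
  have h1 := pr_eq_of_re spR_ectr (sd_dL h) hre
  have hi : i = jl (pr i) := by
    rcases eq_jl_or_jr i with h2 | h2
    · exact h2
    · exfalso
      have h3 : (i : ℕ) = 2 * ((pr i : Fin 3) : ℕ) + 1 := congrArg Fin.val h2
      have h4 : (j : ℕ) < 2 * ((pr j : Fin 3) : ℕ) + 2 := by
        simp only [pr]; omega
      have h5 : (i : ℕ) < j := hij
      rw [h1] at h3
      omega
  have hj : j = jr (pr i) := by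
    rcases eq_jl_or_jr j with h2 | h2
    · exfalso
      rw [← h1, ← hi] at h2
      rw [h2] at hij
      exact lt_irrefl _ hij
    · rw [h1]; exact h2
  set k := pr i
  rw [hi, hj, thp_jl, thp_jr] at hre ⊢
  have h6 : (dL y α k).re = 0 := by
    simp only [sub_re, add_re] at hre
    linarith
  have h7 := od_dL' hα k h6
  simp only [sub_im, add_im]
  linarith

/-! ### the same for the base angles of the region -/

theorem od_dL {y α : Fin 3 → ℝ} (hα : ∀ k, -7 ≤ α k ∧ α k ≤ 1) : Od (dL y α) :=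
  od_dL' (rgA_of hα)

theorem lg_neg_dL {y α : Fin 3 → ℝ} (hα : ∀ k, -7 ≤ α k ∧ α k ≤ 1) (k : Fin 3) :
    lg (-dL y α k) = ((-(ysh y k) / 2 : ℝ) : ℂ) + ((α k / 2 : ℝ) : ℂ) * I + π * I :=
  lg_neg_dL' (rgA_of hα) k

theorem piX_right {y α : Fin 3 → ℝ} (h : H517.Sm (eps0 y α)) (hα : ∀ k, -7 ≤ α k ∧ α k ≤ 1)
    {m : ℕ} (hm : m ≤ 1) (k : Fin 3) :
    H857.piX m (jr k) (rootsL y α) = kp ctr (eps0 y α) ell0 m k +
      cm ctr (eps0 y α) m k * (((-(ysh y k) / 2 : ℝ) : ℂ) + ((α k / 2 : ℝ) : ℂ) * I) :=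
  piX_right' h (rgA_of hα) hm k

theorem piX_left {y α : Fin 3 → ℝ} (h : H517.Sm (eps0 y α)) (hα : ∀ k, -7 ≤ α k ∧ α k ≤ 1)
    {m : ℕ} (hm : m ≤ 1) (k : Fin 3) :
    H857.piX m (jl k) (rootsL y α) = kp ctr (eps0 y α) ell0 m k +
      cm ctr (eps0 y α) m k * (((-(ysh y k) / 2 : ℝ) : ℂ) + ((α k / 2 : ℝ) : ℂ) * I + π * I) :=
  piX_left' h (rgA_of hα) hm k

theorem rootsL_mem {y α : Fin 3 → ℝ} (h : H517.Sm (eps0 y α)) (hα : ∀ k, -7 ≤ α k ∧ α k ≤ 1) :
    rootsL y α ∈ H681.XX := rootsL_mem' h (rgA_of hα)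

end

end Vale.Agent.P273.H908
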