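import Vale.Agent.P273.H339.Closed

/-!
# P273, one node: the reflection of the neck (helper908)

`Q` a real normed space, `la : Q → ℂ` a linear map (`d = exp (la q)`), the fibre coordinate `z`
(`X = exp z`, `Y = exp (2 la q - z)`).  The reflection `z ↦ 2 la q - z` exchanges `X` and `Y`.  A
closed form without vertical part which changes its sign under the reflection is zero.
-/

namespace Vale.Agent.P273.H908.Lk

open scoped ContDiff Topology
open Set Filter Complex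

noncomputable section

variable {Q : Type*} [NormedAddCommGroup Q] [NormedSpace ℝ Q] (la : Q →L[ℝ] ℂ)

/-- the neck over the set `P` of bases -/
def Wn (P : Set Q) (r : ℝ) : Set (Q × ℂ) :=
  {p | p.1 ∈ P ∧ ‖cexp p.2‖ < r ∧ ‖cexp (2 * la p.1 - p.2)‖ < r ∧
    cexp p.2 ≠ cexp (2 * la p.1 - p.2)}

/-- the reflection -/
def Tn : Q × ℂ →L[ℝ] Q × ℂ :=
  (ContinuousLinearMap.fst ℝ Q ℂ).prod
    ((2 : ℝ) • (la.comp (ContinuousLinearMap.fst ℝ Q ℂ)) - ContinuousLinearMap.snd ℝ Q ℂ)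

theorem Tn_apply (p : Q × ℂ) : Tn la p = (p.1, 2 * la p.1 - p.2) := by
  unfold Tn
  refine Prod.ext rfl ?_
  show (2 : ℝ) • la p.1 - p.2 = 2 * la p.1 - p.2
  rw [Complex.real_smul]
  norm_num

theorem Tn_Tn (p : Q × ℂ) : Tn la (Tn la p) = p := by
  rw [Tn_apply, Tn_apply]
  refine Prod.ext rfl ?_
  show 2 * la p.1 - (2 * la p.1 - p.2) = p.2
  ring

variable {la} {P : Set Q} {r : ℝ}

theorem Tn_mem {p : Q × ℂ} (h : p ∈ Wn la P r) : Tn la p ∈ Wn la P r := by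
  obtain ⟨h1, h2, h3, h4⟩ := h
  rw [Tn_apply]
  have e : 2 * la p.1 - (2 * la p.1 - p.2) = p.2 := by ring
  refine ⟨h1, h3, ?_, ?_⟩
  · show ‖cexp (2 * la p.1 - (2 * la p.1 - p.2))‖ < r
    rw [e]
    exact h2
  · show cexp (2 * la p.1 - p.2) ≠ cexp (2 * la p.1 - (2 * la p.1 - p.2))
    rw [e]
    exact h4.symm

theorem isOpen_Wn (hP : IsOpen P) : IsOpen (Wn la P r) := by
  have h : Wn la P r = (Prod.fst ⁻¹' P ∩ {p : Q × ℂ | ‖cexp p.2‖ < r}) ∩
      ({p : Q × ℂ | ‖cexp (2 * la p.1 - p.2)‖ < r} ∩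
        {p : Q × ℂ | cexp p.2 ≠ cexp (2 * la p.1 - p.2)}) := by
    ext p
    simp only [Wn, mem_ofPred_eq, mem_inter_iff, mem_preimage]
    tauto
  rw [h]
  have c1 : Continuous fun p : Q × ℂ => cexp p.2 := by fun_prop
  have c2 : Continuous fun p : Q × ℂ => cexp (2 * la p.1 - p.2) := by fun_prop
  exact ((hP.preimage continuous_fst).inter (isOpen_lt c1.norm continuous_const)).inter
    ((isOpen_lt c2.norm continuous_const).inter (isOpen_ne_fun c1 c2))

/-! ### the fibre, in the coordinate `w = z - la q` -/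

/-- the point of the fibre with coordinate `w` -/
def fb (la : Q →L[ℝ] ℂ) (q : Q) (w : ℂ) : Q × ℂ := (q, la q + w)

/-- the phase condition -/
theorem ne_of {u w : ℂ} (h : cexp (2 * w) ≠ 1) : cexp (u + w) ≠ cexp (2 * u - (u + w)) := by
  intro hc
  apply h
  have e1 : 2 * u - (u + w) = (u + w) - 2 * w := by ring
  rw [e1, Complex.exp_sub] at hc
  have h2 := (eq_div_iff (Complex.exp_ne_zero (2 * w))).1 hc
  exact mul_left_cancel₀ (Complex.exp_ne_zero (u + w)) (by rw [h2, mul_one])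

theorem one_of {u w : ℂ} (h : cexp (u + w) ≠ cexp (2 * u - (u + w))) : cexp (2 * w) ≠ 1 := by
  intro hc
  apply h
  have e1 : u + w = (2 * u - (u + w)) + 2 * w := by ring
  conv_lhs => rw [e1, Complex.exp_add, hc, mul_one]

theorem norm_fb1 (u w : ℂ) : ‖cexp (u + w)‖ = Real.exp u.re * Real.exp w.re := by
  rw [Complex.norm_exp, ← Real.exp_add, Complex.add_re]

theorem norm_fb2 (u w : ℂ) : ‖cexp (2 * u - (u + w))‖ = Real.exp u.re * Real.exp (-w.re) := by
  rw [Complex.norm_exp, ← Real.exp_add]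
  congr 1
  simp
  ring

/-- the fibre in terms of `w` -/
theorem fb_mem {q : Q} {w : ℂ} : fb la q w ∈ Wn la P r ↔ q ∈ P ∧
    Real.exp (la q).re * Real.exp w.re < r ∧ Real.exp (la q).re * Real.exp (-w.re) < r ∧
      cexp (2 * w) ≠ 1 := by
  unfold fb Wn
  rw [mem_ofPred_eq]
  simp only
  rw [norm_fb1, norm_fb2]
  exact ⟨fun ⟨h1, h2, h3, h4⟩ => ⟨h1, h2, h3, one_of h4⟩,
    fun ⟨h1, h2, h3, h4⟩ => ⟨h1, h2, h3, ne_of h4⟩⟩

/-- the size condition -/
def Sz (c r : ℝ) (a : ℝ) : Prop := c * Real.exp a < r ∧ c * Real.exp (-a) < r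

theorem Sz.neg {c a : ℝ} (h : Sz c r a) : Sz c r (-a) := ⟨h.2, by rw [neg_neg]; exact h.1⟩

theorem Sz.seg {c a a' t : ℝ} (hc : 0 < c) (h : Sz c r a) (h' : Sz c r a')
    (ht : t ∈ Icc (0 : ℝ) 1) : Sz c r (a + t * (a' - a)) := by
  have hr : 0 < r := (mul_pos hc (Real.exp_pos a)).trans h.1
  have key : ∀ u : ℝ, c * Real.exp u < r ↔ u < Real.log (r / c) := fun u => by
    rw [Real.lt_log_iff_exp_lt (div_pos hr hc), lt_div_iff₀ hc, mul_comm]
  unfold Sz at h h' ⊢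
  rw [key, key] at h h' ⊢
  obtain ⟨t0, t1⟩ := ht
  constructor
  · nlinarith [mul_nonneg t0 (sub_nonneg.2 h'.1.le), mul_nonneg (sub_nonneg.2 t1)
      (sub_nonneg.2 h.1.le), h.1, h'.1]
  · nlinarith [mul_nonneg t0 (sub_nonneg.2 h'.2.le), mul_nonneg (sub_nonneg.2 t1)
      (sub_nonneg.2 h.2.le), h.2, h'.2]

theorem ne_re {w : ℂ} (h : w.re ≠ 0) : cexp (2 * w) ≠ 1 := by
  intro hc
  have h1 := congrArg (‖·‖) hc
  simp only [Complex.norm_exp, norm_one, Real.exp_eq_one_iff] at h1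
  simp at h1
  exact h h1

theorem ne_mid (a : ℝ) : cexp (2 * ((a : ℂ) + (Real.pi / 2 : ℝ) * I)) ≠ 1 := by
  intro hc
  have e : 2 * ((a : ℂ) + (Real.pi / 2 : ℝ) * I) = ((2 * a : ℝ) : ℂ) + Real.pi * I := by
    push_cast
    ring
  rw [e, Complex.exp_add, Complex.exp_pi_mul_I, ← Complex.ofReal_exp] at hc
  have h1 : ((-Real.exp (2 * a) : ℝ) : ℂ) = ((1 : ℝ) : ℂ) := by
    rw [Complex.ofReal_neg, Complex.ofReal_one]
    linear_combination hc
  have h2 := Complex.ofReal_injective h1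
  linarith [Real.exp_pos (2 * a)]

theorem ne_phase {a b a' : ℝ} (h : cexp (2 * ((a : ℂ) + (b : ℂ) * I)) ≠ 1) (h0 : a = 0) :
    cexp (2 * ((a' : ℂ) + (b : ℂ) * I)) ≠ 1 := by
  by_cases h1 : a' = 0
  · rw [h1]
    rw [h0] at h
    exact h
  · refine ne_re ?_
    simpa using h1

section conn

variable {om : Q × ℂ → (Q × ℂ →L[ℝ] ℝ)}

theorem seg (hP : IsOpen P) (hd : ∀ p ∈ Wn la P r, DifferentiableAt ℝ om p)
    (hs : ∀ p ∈ Wn la P r, ∀ u v, fderiv ℝ om p u v = fderiv ℝ om p v u)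
    (hv : ∀ p ∈ Wn la P r, ∀ c : ℂ, om p (0, c) = 0) {q : Q} {w w' : ℂ}
    (h : ∀ t ∈ Icc (0 : ℝ) 1, fb la q (w + t • (w' - w)) ∈ Wn la P r) :
    om (fb la q w) = om (fb la q w') := by
  refine H339.const_seg (isOpen_Wn hP) hd hs hv fun t ht => ?_
  have e : (la q + w) + t • ((la q + w') - (la q + w)) = la q + (w + t • (w' - w)) := by
    rw [Complex.real_smul, Complex.real_smul]
    ring
  rw [e]
  exact h t ht

theorem segV (hP : IsOpen P) (hd : ∀ p ∈ Wn la P r, DifferentiableAt ℝ om p)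
    (hs : ∀ p ∈ Wn la P r, ∀ u v, fderiv ℝ om p u v = fderiv ℝ om p v u)
    (hv : ∀ p ∈ Wn la P r, ∀ c : ℂ, om p (0, c) = 0) {q : Q} (hq : q ∈ P) {a b b' : ℝ}
    (h1 : Sz (Real.exp (la q).re) r a) (h0 : a ≠ 0) :
    om (fb la q (a + b * I)) = om (fb la q (a + b' * I)) := by
  refine seg hP hd hs hv fun t _ => ?_
  have e : ((a : ℂ) + b * I) + t • (((a : ℂ) + b' * I) - ((a : ℂ) + b * I)) =
      (a : ℂ) + ((b + t * (b' - b) : ℝ) : ℂ) * I := by
    rw [Complex.real_smul]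
    push_cast
    ring
  have e2 : ((a : ℂ) + ((b + t * (b' - b) : ℝ) : ℂ) * I).re = a := by simp
  rw [e, fb_mem, e2]
  exact ⟨hq, h1.1, h1.2, ne_re (by rw [e2]; exact h0)⟩

theorem segH (hP : IsOpen P) (hd : ∀ p ∈ Wn la P r, DifferentiableAt ℝ om p)
    (hs : ∀ p ∈ Wn la P r, ∀ u v, fderiv ℝ om p u v = fderiv ℝ om p v u)
    (hv : ∀ p ∈ Wn la P r, ∀ c : ℂ, om p (0, c) = 0) {q : Q} (hq : q ∈ P) {a a' b : ℝ}
    (h1 : Sz (Real.exp (la q).re) r a) (h1' : Sz (Real.exp (la q).re) r a')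
    (h0 : ∀ s : ℝ, cexp (2 * ((s : ℂ) + (b : ℂ) * I)) ≠ 1) :
    om (fb la q (a + b * I)) = om (fb la q (a' + b * I)) := by
  refine seg hP hd hs hv fun t ht => ?_
  have e : ((a : ℂ) + b * I) + t • (((a' : ℂ) + b * I) - ((a : ℂ) + b * I)) =
      ((a + t * (a' - a) : ℝ) : ℂ) + (b : ℂ) * I := by
    rw [Complex.real_smul]
    push_cast
    ring
  have e2 : (((a + t * (a' - a) : ℝ) : ℂ) + (b : ℂ) * I).re = a + t * (a' - a) := by simp
  rw [e, fb_mem, e2]
  have h3 := h1.seg (Real.exp_pos _) h1' ht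
  exact ⟨hq, h3.1, h3.2, h0 _⟩

/-- the values at a point and at its mirror image agree -/
theorem conn (hP : IsOpen P) (hd : ∀ p ∈ Wn la P r, DifferentiableAt ℝ om p)
    (hs : ∀ p ∈ Wn la P r, ∀ u v, fderiv ℝ om p u v = fderiv ℝ om p v u)
    (hv : ∀ p ∈ Wn la P r, ∀ c : ℂ, om p (0, c) = 0) {p : Q × ℂ} (hp : p ∈ Wn la P r)
    (hl : ‖cexp (la p.1)‖ < r) : om p = om (Tn la p) := by
  obtain ⟨q, z⟩ := p
  set w : ℂ := z - la q with hw
  have e1 : ((q, z) : Q × ℂ) = fb la q w := by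
    unfold fb
    rw [hw]
    refine Prod.ext rfl ?_
    show z = la q + (z - la q)
    ring
  have e2 : Tn la (q, z) = fb la q (-w) := by
    rw [Tn_apply]
    unfold fb
    rw [hw]
    refine Prod.ext rfl ?_
    show 2 * la q - z = la q + -(z - la q)
    ring
  rw [e2]
  rw [e1] at hp ⊢
  obtain ⟨hq, h1, h2, h3⟩ := fb_mem.1 hp
  have hS : Sz (Real.exp (la q).re) r w.re := ⟨h1, h2⟩
  have ew : w = (w.re : ℂ) + (w.im : ℂ) * I := (Complex.re_add_im w).symm
  have ew' : -w = ((-w.re : ℝ) : ℂ) + ((-w.im : ℝ) : ℂ) * I := by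
    conv_lhs => rw [ew]
    push_cast
    ring
  have V := fun {a b b' : ℝ} => segV (om := om) (a := a) (b := b) (b' := b') hP hd hs hv hq
  have H := fun {a a' b : ℝ} => segH (om := om) (a := a) (a' := a') (b := b) hP hd hs hv hq
  rw [ew']
  conv_lhs => rw [ew]
  set a := w.re with ha
  set b := w.im with hb
  by_cases h0 : a = 0
  · -- a small positive size
    have hc : Real.exp (la q).re < r := by rwa [Complex.norm_exp] at hl
    obtain ⟨s, hs0, hs1⟩ : ∃ s : ℝ, 0 < s ∧ Real.exp (la q).re * Real.exp s < r := by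
      have hr : 0 < r := (Real.exp_pos _).trans hc
      refine ⟨(Real.log r - (la q).re) / 2, ?_, ?_⟩
      · have := (Real.lt_log_iff_exp_lt hr).2 hc
        linarith
      · rw [← Real.exp_add, ← Real.lt_log_iff_exp_lt hr]
        have := (Real.lt_log_iff_exp_lt hr).2 hc
        linarith
    have hSs : Sz (Real.exp (la q).re) r s := by
      refine ⟨hs1, lt_of_le_of_lt ?_ hs1⟩
      exact mul_le_mul_of_nonneg_left (Real.exp_le_exp.2 (by linarith)) (Real.exp_pos _).le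
    have hph : ∀ t : ℝ, cexp (2 * ((t : ℂ) + (b : ℂ) * I)) ≠ 1 := fun t =>
      ne_phase (a := a) (by rw [← ew]; exact h3) h0
    have hph' : ∀ t : ℝ, cexp (2 * ((t : ℂ) + ((-b : ℝ) : ℂ) * I)) ≠ 1 := by
      intro t hc
      apply hph (-t)
      have e : 2 * (((-t : ℝ) : ℂ) + (b : ℂ) * I) = -(2 * ((t : ℂ) + ((-b : ℝ) : ℂ) * I)) := by
        push_cast
        ring
      rw [e, Complex.exp_neg, hc, inv_one]
    rw [H (a' := s) hS hSs hph, V (b' := Real.pi / 2) hSs hs0.ne',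
      H (a' := -s) hSs hSs.neg ne_mid, V (b' := -b) hSs.neg (neg_ne_zero.2 hs0.ne'),
      H (a' := -a) hSs.neg hS.neg hph']
  · rw [V (b' := Real.pi / 2) hS h0, H (a' := -a) hS hS.neg ne_mid,
      V (b' := -b) hS.neg (neg_ne_zero.2 h0)]

/-- **a closed form without vertical part which changes its sign under the reflection is zero** -/
theorem reflect (hP : IsOpen P) (hl : ∀ q ∈ P, ‖cexp (la q)‖ < r)
    (hd : ∀ p ∈ Wn la P r, DifferentiableAt ℝ om p)
    (hs : ∀ p ∈ Wn la P r, ∀ u v, fderiv ℝ om p u v = fderiv ℝ om p v u)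
    (hv : ∀ p ∈ Wn la P r, ∀ c : ℂ, om p (0, c) = 0)
    (hT : ∀ p ∈ Wn la P r, ∀ v, om (Tn la p) (Tn la v) = -om p v) :
    ∀ p ∈ Wn la P r, om p = 0 := by
  intro p hp
  have hc := conn hP hd hs hv hp (hl _ hp.1)
  refine ContinuousLinearMap.ext fun v => ?_
  have h7 := hT p hp v
  have h10 : om (Tn la p) (Tn la v) = om (Tn la p) v := by
    have h11 : Tn la v = v + ((0 : Q), 2 * la v.1 - 2 * v.2) := by
      rw [Tn_apply]
      refine Prod.ext ?_ ?_
      · simp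
      · show 2 * la v.1 - v.2 = v.2 + (2 * la v.1 - 2 * v.2)
        ring
    rw [h11, map_add, hv _ (Tn_mem hp), add_zero]
  rw [← hc] at h7 h10
  have h13 : om p v = 0 := by linarith
  rw [h13]
  rfl

end conn

end

end Vale.Agent.P273.H908.Lk
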