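import Vale.Agent.P273.H908.Lk

/-!
# P273, one node: the reflection of the neck in linear coordinates (helper908)

`Q` a real normed space, `la : Q → ℂ` linear (`d = exp (la q)`), fibre coordinate `z`:
`X = exp (la q + z)`, `Y = exp (la q - z)`.  The reflection is `z ↦ - z`.
-/

namespace Vale.Agent.P273.H908.Lk

open scoped ContDiff Topology
open Set Filter Complex

noncomputable section

variable {Q : Type*} [NormedAddCommGroup Q] [NormedSpace ℝ Q] (la : Q →L[ℝ] ℂ)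

/-- the neck over the set `P` of bases, linear coordinates -/
def Wm (P : Set Q) (r : ℝ) : Set (Q × ℂ) :=
  {p | p.1 ∈ P ∧ ‖cexp (la p.1 + p.2)‖ < r ∧ ‖cexp (la p.1 - p.2)‖ < r ∧
    cexp (la p.1 + p.2) ≠ cexp (la p.1 - p.2)}

/-- the reflection -/
def Tm : Q × ℂ →L[ℝ] Q × ℂ :=
  (ContinuousLinearMap.fst ℝ Q ℂ).prod (-ContinuousLinearMap.snd ℝ Q ℂ)

theorem Tm_apply (p : Q × ℂ) : Tm p = (p.1, -p.2) := rfl

variable {la} {P : Set Q} {r : ℝ}

theorem Tm_mem {p : Q × ℂ} (h : p ∈ Wm la P r) : Tm p ∈ Wm la P r := by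
  obtain ⟨h1, h2, h3, h4⟩ := h
  rw [Tm_apply]
  refine ⟨h1, ?_, ?_, ?_⟩
  · show ‖cexp (la p.1 + -p.2)‖ < r
    rw [← sub_eq_add_neg]
    exact h3
  · show ‖cexp (la p.1 - -p.2)‖ < r
    rw [sub_neg_eq_add]
    exact h2
  · show cexp (la p.1 + -p.2) ≠ cexp (la p.1 - -p.2)
    rw [← sub_eq_add_neg, sub_neg_eq_add]
    exact h4.symm

theorem isOpen_Wm (hP : IsOpen P) : IsOpen (Wm la P r) := by
  have h : Wm la P r = (Prod.fst ⁻¹' P ∩ {p : Q × ℂ | ‖cexp (la p.1 + p.2)‖ < r}) ∩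
      ({p : Q × ℂ | ‖cexp (la p.1 - p.2)‖ < r} ∩
        {p : Q × ℂ | cexp (la p.1 + p.2) ≠ cexp (la p.1 - p.2)}) := by
    ext p
    simp only [Wm, mem_ofPred_eq, mem_inter_iff, mem_preimage]
    tauto
  rw [h]
  have c1 : Continuous fun p : Q × ℂ => cexp (la p.1 + p.2) := by fun_prop
  have c2 : Continuous fun p : Q × ℂ => cexp (la p.1 - p.2) := by fun_prop
  exact ((hP.preimage continuous_fst).inter (isOpen_lt c1.norm continuous_const)).inter
    ((isOpen_lt c2.norm continuous_const).inter (isOpen_ne_fun c1 c2))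

theorem mem_Wm {q : Q} {w : ℂ} : (q, w) ∈ Wm la P r ↔ q ∈ P ∧
    Real.exp (la q).re * Real.exp w.re < r ∧ Real.exp (la q).re * Real.exp (-w.re) < r ∧
      cexp (2 * w) ≠ 1 := by
  have e1 : la q - w = 2 * la q - (la q + w) := by ring
  unfold Wm
  rw [mem_ofPred_eq]
  simp only
  rw [e1, norm_fb1, norm_fb2]
  exact ⟨fun ⟨h1, h2, h3, h4⟩ => ⟨h1, h2, h3, one_of h4⟩,
    fun ⟨h1, h2, h3, h4⟩ => ⟨h1, h2, h3, ne_of h4⟩⟩

section conn

variable {om : Q × ℂ → (Q × ℂ →L[ℝ] ℝ)}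

theorem segV' (hP : IsOpen P) (hd : ∀ p ∈ Wm la P r, DifferentiableAt ℝ om p)
    (hs : ∀ p ∈ Wm la P r, ∀ u v, fderiv ℝ om p u v = fderiv ℝ om p v u)
    (hv : ∀ p ∈ Wm la P r, ∀ c : ℂ, om p (0, c) = 0) {q : Q} (hq : q ∈ P) {a b b' : ℝ}
    (h1 : Sz (Real.exp (la q).re) r a) (h0 : a ≠ 0) :
    om (q, (a + b * I)) = om (q, (a + b' * I)) := by
  refine H339.const_seg (isOpen_Wm hP) hd hs hv fun t _ => ?_
  have e : ((a : ℂ) + b * I) + t • (((a : ℂ) + b' * I) - ((a : ℂ) + b * I)) =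
      (a : ℂ) + ((b + t * (b' - b) : ℝ) : ℂ) * I := by
    rw [Complex.real_smul]
    push_cast
    ring
  have e2 : ((a : ℂ) + ((b + t * (b' - b) : ℝ) : ℂ) * I).re = a := by simp
  rw [e, mem_Wm, e2]
  exact ⟨hq, h1.1, h1.2, ne_re (by rw [e2]; exact h0)⟩

theorem segH' (hP : IsOpen P) (hd : ∀ p ∈ Wm la P r, DifferentiableAt ℝ om p)
    (hs : ∀ p ∈ Wm la P r, ∀ u v, fderiv ℝ om p u v = fderiv ℝ om p v u)
    (hv : ∀ p ∈ Wm la P r, ∀ c : ℂ, om p (0, c) = 0) {q : Q} (hq : q ∈ P) {a a' b : ℝ}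
    (h1 : Sz (Real.exp (la q).re) r a) (h1' : Sz (Real.exp (la q).re) r a')
    (h0 : ∀ s : ℝ, cexp (2 * ((s : ℂ) + (b : ℂ) * I)) ≠ 1) :
    om (q, (a + b * I)) = om (q, (a' + b * I)) := by
  refine H339.const_seg (isOpen_Wm hP) hd hs hv fun t ht => ?_
  have e : ((a : ℂ) + b * I) + t • (((a' : ℂ) + b * I) - ((a : ℂ) + b * I)) =
      ((a + t * (a' - a) : ℝ) : ℂ) + (b : ℂ) * I := by
    rw [Complex.real_smul]
    push_cast
    ring
  have e2 : (((a + t * (a' - a) : ℝ) : ℂ) + (b : ℂ) * I).re = a + t * (a' - a) := by simp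
  rw [e, mem_Wm, e2]
  have h3 := h1.seg (Real.exp_pos _) h1' ht
  exact ⟨hq, h3.1, h3.2, h0 _⟩

/-- the values at a point and at its mirror image agree -/
theorem conn' (hP : IsOpen P) (hd : ∀ p ∈ Wm la P r, DifferentiableAt ℝ om p)
    (hs : ∀ p ∈ Wm la P r, ∀ u v, fderiv ℝ om p u v = fderiv ℝ om p v u)
    (hv : ∀ p ∈ Wm la P r, ∀ c : ℂ, om p (0, c) = 0) {q : Q} {w : ℂ} (hp : (q, w) ∈ Wm la P r)
    (hl : ‖cexp (la q)‖ < r) : om (q, w) = om (q, -w) := by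
  obtain ⟨hq, h1, h2, h3⟩ := mem_Wm.1 hp
  have hS : Sz (Real.exp (la q).re) r w.re := ⟨h1, h2⟩
  have ew : w = (w.re : ℂ) + (w.im : ℂ) * I := (Complex.re_add_im w).symm
  have ew' : -w = ((-w.re : ℝ) : ℂ) + ((-w.im : ℝ) : ℂ) * I := by
    conv_lhs => rw [ew]
    push_cast
    ring
  have V := fun {a b b' : ℝ} => segV' (om := om) (a := a) (b := b) (b' := b') hP hd hs hv hq
  have H := fun {a a' b : ℝ} => segH' (om := om) (a := a) (a' := a') (b := b) hP hd hs hv hq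
  rw [ew']
  conv_lhs => rw [ew]
  set a := w.re with ha
  set b := w.im with hb
  by_cases h0 : a = 0
  · have hc : Real.exp (la q).re < r := by rwa [Complex.norm_exp] at hl
    obtain ⟨s, hs0, hs1⟩ : ∃ s : ℝ, 0 < s ∧ Real.exp (la q).re * Real.exp s < r := by
      have hr : 0 < r := (Real.exp_pos _).trans hc
      refine ⟨(Real.log r - (la q).re) / 2, ?_, ?_⟩
      · have := (Real.lt_log_iff_exp_lt hr).2 hc
        linarith
      · rw [← Real.exp_add, ← Real.lt_log_iff_exp_lt hr]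
        have := (Real.lt_log_iff_exp_lt hr).2 hc
        linarith
    have hSs : Sz (Real.exp (la q).re) r s := by
      refine ⟨hs1, lt_of_le_of_lt ?_ hs1⟩
      exact mul_le_mul_of_nonneg_left (Real.exp_le_exp.2 (by linarith)) (Real.exp_pos _).le
    have hph : ∀ t : ℝ, cexp (2 * ((t : ℂ) + (b : ℂ) * I)) ≠ 1 := fun t =>
      ne_phase (a := a) (by rw [← ew]; exact h3) h0
    have hph' : ∀ t : ℝ, cexp (2 * ((t : ℂ) + ((-b : ℝ) : ℂ) * I)) ≠ 1 := by
      intro t hc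
      apply hph (-t)
      have e : 2 * (((-t : ℝ) : ℂ) + (b : ℂ) * I) = -(2 * ((t : ℂ) + ((-b : ℝ) : ℂ) * I)) := by
        push_cast
        ring
      rw [e, Complex.exp_neg, hc, inv_one]
    rw [H (a' := s) hS hSs hph, V (b' := Real.pi / 2) hSs hs0.ne',
      H (a' := -s) hSs hSs.neg ne_mid, V (b' := -b) hSs.neg (neg_ne_zero.2 hs0.ne'),
      H (a' := -a) hSs.neg hS.neg hph']
  · rw [V (b' := Real.pi / 2) hS h0, H (a' := -a) hS hS.neg ne_mid,
      V (b' := -b) hS.neg (neg_ne_zero.2 h0)]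

/-- **a closed form without vertical part which changes its sign under the reflection is zero** -/
theorem reflect' (hP : IsOpen P) (hl : ∀ q ∈ P, ‖cexp (la q)‖ < r)
    (hd : ∀ p ∈ Wm la P r, DifferentiableAt ℝ om p)
    (hs : ∀ p ∈ Wm la P r, ∀ u v, fderiv ℝ om p u v = fderiv ℝ om p v u)
    (hv : ∀ p ∈ Wm la P r, ∀ c : ℂ, om p (0, c) = 0)
    (hT : ∀ p ∈ Wm la P r, ∀ v, om (Tm p) (Tm v) = -om p v) :
    ∀ p ∈ Wm la P r, om p = 0 := by
  rintro ⟨q, w⟩ hp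
  have hc : om (q, w) = om (Tm (q, w)) := conn' hP hd hs hv hp (hl _ hp.1)
  refine ContinuousLinearMap.ext fun v => ?_
  have h7 := hT _ hp v
  have h10 : om (Tm (q, w)) (Tm v) = om (Tm (q, w)) v := by
    have h11 : Tm v = v + ((0 : Q), -2 * v.2) := by
      rw [Tm_apply]
      refine Prod.ext ?_ ?_
      · simp
      · show -v.2 = v.2 + (-2 * v.2)
        ring
    rw [h11, map_add, hv _ (Tm_mem hp), add_zero]
  rw [← hc] at h7 h10
  have h13 : om (q, w) v = 0 := by linarith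
  rw [h13]
  rfl

end conn

end

end Vale.Agent.P273.H908.Lk
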