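import Vale.Agent.P273.H908.Lk2
import Vale.Agent.P273.H598.Node2

/-!
# P273, one node: the sheet in the neck (helper908)

`vv i q X Y = GG i q ((X + Y) / 2) * ((X - Y) / 2)` is a square root of the polynomial at the point
`q i + (X + Y) / 2` when the roots `i`, `i + 1` are at distance `d` of their centre and `X Y = d ^ 2`.
-/

namespace Vale.Agent.P273.H908.Lk

open scoped ContDiff Topology
open Set Filter Complex
open Vale.Agent.P273.H598
open Vale.Agent.P273.H857 (br Sb lo C6)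
open Vale.Agent.P273.H214 (ff)

noncomputable section

variable {i : Fin 5}

/-- the neck function at the middle point -/
def vv (i : Fin 5) (q : C6) (X Y : ℂ) : ℂ := GG i q ((X + Y) / 2) * ((X - Y) / 2)

theorem vv_swap (q : C6) (X Y : ℂ) : vv i q Y X = -vv i q X Y := by
  unfold vv
  rw [add_comm Y X]
  ring

theorem GG_sq (q : C6) (z : ℂ) : GG i q z ^ 2 = ∏ l ∈ oth i, (q i.castSucc + z - q l) := by
  unfold GG
  rw [← Finset.prod_pow]
  refine Finset.prod_congr rfl fun l _ => ?_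
  rw [sq, H857.br_mul_self]

/-- the polynomial near the small pair -/
theorem ff_bb (d : ℂ) (q : C6) (z : ℂ) :
    ff (bb i (d, q), q i.castSucc + z) = (z ^ 2 - d ^ 2) * GG i q z ^ 2 := by
  unfold ff
  have h1 : i.succ ∈ Finset.univ.erase i.castSucc := by simp [succ_ne i]
  rw [← Finset.mul_prod_erase Finset.univ _ (Finset.mem_univ i.castSucc),
    ← Finset.mul_prod_erase (Finset.univ.erase i.castSucc) _ h1, GG_sq]
  have e2 : ∏ l ∈ (Finset.univ.erase i.castSucc).erase i.succ,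
      (q i.castSucc + z - bb i (d, q) l) = ∏ l ∈ oth i, (q i.castSucc + z - q l) := by
    refine Finset.prod_congr rfl fun l hl => ?_
    have hl' : l ∈ oth i := hl
    rw [mem_oth] at hl'
    rw [bb_of_ne i hl'.2 hl'.1]
  simp only [e2, bb_zero, bb_one]
  ring

theorem vv_sq {q : C6} {d X Y : ℂ} (h : X * Y = d ^ 2) :
    vv i q X Y ^ 2 = ff (bb i (d, q), q i.castSucc + (X + Y) / 2) := by
  rw [ff_bb, ← h]
  unfold vv
  ring

theorem vv_ne_zero {q : C6} {X Y : ℂ} (hg : (q, (X + Y) / 2) ∈ Gd i) (h : X ≠ Y) :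
    vv i q X Y ≠ 0 := by
  have h1 : GG i q ((X + Y) / 2) ≠ 0 := GG_ne_zero (p := (q, (X + Y) / 2)) hg
  have h2 : (X - Y) / 2 ≠ 0 := div_ne_zero (sub_ne_zero.2 h) two_ne_zero
  exact mul_ne_zero h1 h2

/-- the two sheets -/
theorem eq_vv {q : C6} {d X Y v : ℂ} (h : X * Y = d ^ 2)
    (hv : v ^ 2 = ff (bb i (d, q), q i.castSucc + (X + Y) / 2)) :
    v = vv i q X Y ∨ v = -vv i q X Y := by
  rw [← vv_sq h] at hv
  exact sq_eq_sq_iff_eq_or_eq_neg.1 hv

theorem analyticAt_GG {p : C6 × ℂ} (hp : p ∈ Gd i) :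
    AnalyticAt ℂ (fun p : C6 × ℂ => GG i p.1 p.2) p := by
  unfold GG
  refine Finset.analyticAt_fun_prod _ fun l hl => ?_
  have h2 : AnalyticAt ℂ (fun p : C6 × ℂ => p.1 i.castSucc + p.2 - p.1 l) p :=
    (((ContinuousLinearMap.proj i.castSucc).comp (ContinuousLinearMap.fst ℂ C6 ℂ) +
      ContinuousLinearMap.snd ℂ C6 ℂ) -
      (ContinuousLinearMap.proj l).comp (ContinuousLinearMap.fst ℂ C6 ℂ)).analyticAt _
  exact (H857.analyticAt_br (hp l hl)).comp_of_eq h2 rfl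

theorem contDiffAt_GG {p : C6 × ℂ} (hp : p ∈ Gd i) :
    ContDiffAt ℝ ∞ (fun p : C6 × ℂ => GG i p.1 p.2) p :=
  (analyticAt_GG hp).contDiffAt.restrict_scalars ℝ

theorem norm_mid_lt {X Y : ℂ} {r : ℝ} (hX : ‖X‖ < r) (hY : ‖Y‖ < r) : ‖(X + Y) / 2‖ < r := by
  rw [norm_div, RCLike.norm_ofNat]
  have := norm_add_le X Y
  linarith

theorem HH_mid (i : Fin 5) (m : ℕ) (q : C6) (X Y : ℂ) :
    HH i m (q, (X + Y) / 2) = (q i.castSucc + (X + Y) / 2) ^ m / GG i q ((X + Y) / 2) := rfl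

/-! ### the chart `((q, l), z)`: `d = exp l`, `X = exp (l + z)`, `Y = exp (l - z)` -/

/-- the neck coordinate -/
def XL (p : (C6 × ℂ) × ℂ) : ℂ := cexp (p.1.2 + p.2)
/-- the opposite neck coordinate -/
def YL (p : (C6 × ℂ) × ℂ) : ℂ := cexp (p.1.2 - p.2)
/-- roots and point -/
def psL (i : Fin 5) (p : (C6 × ℂ) × ℂ) : C6 × ℂ :=
  (bb i (cexp p.1.2, p.1.1), p.1.1 i.castSucc + (XL p + YL p) / 2)
/-- the sheet -/
def vL (i : Fin 5) (p : (C6 × ℂ) × ℂ) : ℂ := vv i p.1.1 (XL p) (YL p)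

theorem XL_mul_YL (p : (C6 × ℂ) × ℂ) : XL p * YL p = cexp p.1.2 ^ 2 := by
  unfold XL YL
  rw [← Complex.exp_add, ← Complex.exp_nat_mul]
  congr 1
  push_cast
  ring

theorem XL_ne_zero (p : (C6 × ℂ) × ℂ) : XL p ≠ 0 := Complex.exp_ne_zero _

theorem YL_ne_zero (p : (C6 × ℂ) × ℂ) : YL p ≠ 0 := Complex.exp_ne_zero _

theorem XL_Tm (p : (C6 × ℂ) × ℂ) : XL (Tm p) = YL p := by
  unfold XL YL
  rw [Tm_apply, ← sub_eq_add_neg]

theorem YL_Tm (p : (C6 × ℂ) × ℂ) : YL (Tm p) = XL p := by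
  unfold XL YL
  rw [Tm_apply, sub_neg_eq_add]

theorem psL_Tm (p : (C6 × ℂ) × ℂ) : psL i (Tm p) = psL i p := by
  unfold psL
  rw [XL_Tm, YL_Tm, add_comm (YL p)]
  rfl

theorem vL_Tm (p : (C6 × ℂ) × ℂ) : vL i (Tm p) = -vL i p := by
  unfold vL
  rw [XL_Tm, YL_Tm, vv_swap]
  rfl

theorem vL_sq (p : (C6 × ℂ) × ℂ) : vL i p ^ 2 = ff (psL i p) := vv_sq (XL_mul_YL p)

theorem contDiff_XL : ContDiff ℝ ∞ XL := by
  unfold XL
  have h : ContDiff ℝ ∞ fun p : (C6 × ℂ) × ℂ => p.1.2 + p.2 := by fun_prop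
  exact h.cexp

theorem contDiff_YL : ContDiff ℝ ∞ YL := by
  unfold YL
  have h : ContDiff ℝ ∞ fun p : (C6 × ℂ) × ℂ => p.1.2 - p.2 := by fun_prop
  exact h.cexp

theorem contDiff_bb : ContDiff ℝ ∞ fun p : ℂ × C6 => bb i p := by
  refine contDiff_pi.2 fun l => ?_
  unfold bb H828.pr
  by_cases h0 : l = i.castSucc
  · simp only [h0, if_true]
    fun_prop
  · by_cases h6 : l = i.succ
    · simp only [h6, if_true, if_false, succ_ne i]
      fun_prop
    · simp only [h0, h6, if_false]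
      fun_prop

theorem contDiff_psL : ContDiff ℝ ∞ (psL i) := by
  unfold psL
  have h1 : ContDiff ℝ ∞ fun p : (C6 × ℂ) × ℂ => cexp p.1.2 := by
    have h : ContDiff ℝ ∞ fun p : (C6 × ℂ) × ℂ => p.1.2 := by fun_prop
    exact h.cexp
  have h2 : ContDiff ℝ ∞ fun p : (C6 × ℂ) × ℂ => p.1.1 := by fun_prop
  have h3 : ContDiff ℝ ∞ fun p : (C6 × ℂ) × ℂ => p.1.1 i.castSucc := by fun_prop
  exact (contDiff_bb.comp (h1.prodMk h2)).prodMk
    (h3.add ((contDiff_XL.add contDiff_YL).div_const _))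

theorem continuousAt_vL {p : (C6 × ℂ) × ℂ} (hg : (p.1.1, (XL p + YL p) / 2) ∈ Gd i) :
    ContinuousAt (vL i) p := by
  have c1 := contDiff_XL.continuous.continuousAt (x := p)
  have c2 := contDiff_YL.continuous.continuousAt (x := p)
  have c3 : ContinuousAt (fun p : (C6 × ℂ) × ℂ => (p.1.1, (XL p + YL p) / 2)) p :=
    (by fun_prop : Continuous fun p : (C6 × ℂ) × ℂ => p.1.1).continuousAt.prodMk
      ((c1.add c2).div_const _)
  have c4 : ContinuousAt (fun p : (C6 × ℂ) × ℂ => GG i p.1.1 ((XL p + YL p) / 2)) p :=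
    ContinuousAt.comp (f := fun p : (C6 × ℂ) × ℂ => (p.1.1, (XL p + YL p) / 2))
      (g := fun p : C6 × ℂ => GG i p.1 p.2) (contDiffAt_GG hg).continuousAt c3
  exact c4.mul ((c1.sub c2).div_const _)

/-! ### derivatives in the chart -/

/-- the direction of the neck chart: `δ` moves the roots, `lX`, `lY` logarithmic derivatives -/
theorem hasFDerivAt_XL (p : (C6 × ℂ) × ℂ) (v : (C6 × ℂ) × ℂ) :
    fderiv ℝ XL p v = XL p * (v.1.2 + v.2) := by
  have h : HasFDerivAt (fun p : (C6 × ℂ) × ℂ => p.1.2 + p.2)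
      ((ContinuousLinearMap.snd ℝ C6 ℂ).comp (ContinuousLinearMap.fst ℝ (C6 × ℂ) ℂ) +
        ContinuousLinearMap.snd ℝ (C6 × ℂ) ℂ) p :=
    ((ContinuousLinearMap.snd ℝ C6 ℂ).comp (ContinuousLinearMap.fst ℝ (C6 × ℂ) ℂ) +
        ContinuousLinearMap.snd ℝ (C6 × ℂ) ℂ).hasFDerivAt
  have h2 := h.cexp
  have h3 : fderiv ℝ XL p = _ := h2.fderiv
  rw [h3]
  rfl

theorem hasFDerivAt_YL (p : (C6 × ℂ) × ℂ) (v : (C6 × ℂ) × ℂ) :
    fderiv ℝ YL p v = YL p * (v.1.2 - v.2) := by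
  have h : HasFDerivAt (fun p : (C6 × ℂ) × ℂ => p.1.2 - p.2)
      ((ContinuousLinearMap.snd ℝ C6 ℂ).comp (ContinuousLinearMap.fst ℝ (C6 × ℂ) ℂ) -
        ContinuousLinearMap.snd ℝ (C6 × ℂ) ℂ) p :=
    ((ContinuousLinearMap.snd ℝ C6 ℂ).comp (ContinuousLinearMap.fst ℝ (C6 × ℂ) ℂ) -
        ContinuousLinearMap.snd ℝ (C6 × ℂ) ℂ).hasFDerivAt
  have h2 := h.cexp
  have h3 : fderiv ℝ YL p = _ := h2.fderiv
  rw [h3]
  rfl

/-- the line through a point of the base -/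
def lnv (p : (C6 × ℂ) × ℂ) (v : (C6 × ℂ) × ℂ) (t : ℝ) : (C6 × ℂ) × ℂ := p + t • v

/-- the derivative of the chart: the roots and the point -/
theorem fderiv_psL (p : (C6 × ℂ) × ℂ) (v : (C6 × ℂ) × ℂ) :
    fderiv ℝ (psL i) p v =
      (H828.pr i v.1.1 (v.1.1 i.castSucc) (cexp p.1.2 * v.1.2),
        v.1.1 i.castSucc + (XL p * (v.1.2 + v.2) + YL p * (v.1.2 - v.2)) / 2) := by
  have hX : HasFDerivAt XL (fderiv ℝ XL p) p :=
    (contDiff_XL.contDiffAt.differentiableAt (by simp)).hasFDerivAt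
  have hY : HasFDerivAt YL (fderiv ℝ YL p) p :=
    (contDiff_YL.contDiffAt.differentiableAt (by simp)).hasFDerivAt
  have hd : HasFDerivAt (fun p : (C6 × ℂ) × ℂ => cexp p.1.2)
      (cexp p.1.2 • ((ContinuousLinearMap.snd ℝ C6 ℂ).comp
        (ContinuousLinearMap.fst ℝ (C6 × ℂ) ℂ))) p :=
    (((ContinuousLinearMap.snd ℝ C6 ℂ).comp
        (ContinuousLinearMap.fst ℝ (C6 × ℂ) ℂ)).hasFDerivAt).cexp
  have hq : ∀ l : Fin 6, HasFDerivAt (fun p : (C6 × ℂ) × ℂ => p.1.1 l)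
      (((ContinuousLinearMap.proj l).comp (ContinuousLinearMap.fst ℝ C6 ℂ)).comp
        (ContinuousLinearMap.fst ℝ (C6 × ℂ) ℂ)) p := fun l =>
    (((ContinuousLinearMap.proj l).comp (ContinuousLinearMap.fst ℝ C6 ℂ)).comp
        (ContinuousLinearMap.fst ℝ (C6 × ℂ) ℂ)).hasFDerivAt
  have hps : DifferentiableAt ℝ (psL i) p :=
    contDiff_psL.contDiffAt.differentiableAt (by simp)
  refine Prod.ext (funext fun l => ?_) ?_
  · have h1 : (fderiv ℝ (psL i) p v).1 l = fderiv ℝ (fun p => (psL i p).1 l) p v := by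
      have h2 : HasFDerivAt (fun p => (psL i p).1 l)
          (((ContinuousLinearMap.proj l).comp (ContinuousLinearMap.fst ℝ C6 ℂ)).comp
            (fderiv ℝ (psL i) p)) p :=
        (((ContinuousLinearMap.proj l).comp (ContinuousLinearMap.fst ℝ C6 ℂ)).hasFDerivAt).comp p
          hps.hasFDerivAt
      rw [h2.fderiv]
      rfl
    rw [h1]
    show _ = H828.pr i v.1.1 (v.1.1 i.castSucc) (cexp p.1.2 * v.1.2) l
    unfold H828.pr
    by_cases h0 : l = i.castSucc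
    · subst h0
      rw [if_pos rfl]
      have h3 : (fun p : (C6 × ℂ) × ℂ => (psL i p).1 i.castSucc) =
          fun p => p.1.1 i.castSucc - cexp p.1.2 := by
        funext p
        exact bb_zero i _ _
      rw [h3, ((hq i.castSucc).fun_sub hd).fderiv]
      rfl
    · by_cases h6 : l = i.succ
      · subst h6
        rw [if_neg (succ_ne i), if_pos rfl]
        have h3 : (fun p : (C6 × ℂ) × ℂ => (psL i p).1 i.succ) =
            fun p => p.1.1 i.castSucc + cexp p.1.2 := by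
          funext p
          exact bb_one i _ _
        rw [h3, ((hq i.castSucc).fun_add hd).fderiv]
        rfl
      · rw [if_neg h0, if_neg h6]
        have h3 : (fun p : (C6 × ℂ) × ℂ => (psL i p).1 l) = fun p => p.1.1 l := by
          funext p
          exact bb_of_ne i h0 h6 _ _
        rw [h3, (hq l).fderiv]
        rfl
  · have h1 : (fderiv ℝ (psL i) p v).2 = fderiv ℝ (fun p => (psL i p).2) p v := by
      have h2 : HasFDerivAt (fun p => (psL i p).2)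
          ((ContinuousLinearMap.snd ℝ C6 ℂ).comp (fderiv ℝ (psL i) p)) p :=
        ((ContinuousLinearMap.snd ℝ C6 ℂ).hasFDerivAt).comp p hps.hasFDerivAt
      rw [h2.fderiv]
      rfl
    rw [h1]
    have h4 : (fun p : (C6 × ℂ) × ℂ => (psL i p).2) =
        fun p => p.1.1 i.castSucc + (XL p + YL p) / 2 := rfl
    have h5 : HasFDerivAt (fun p : (C6 × ℂ) × ℂ => p.1.1 i.castSucc + (XL p + YL p) / 2)
        (((ContinuousLinearMap.proj i.castSucc).comp (ContinuousLinearMap.fst ℝ C6 ℂ)).comp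
          (ContinuousLinearMap.fst ℝ (C6 × ℂ) ℂ) +
          (2 : ℂ)⁻¹ • (fderiv ℝ XL p + fderiv ℝ YL p)) p := by
      have h6 := (hq i.castSucc).add ((hX.add hY).const_smul (2 : ℂ)⁻¹)
      refine h6.congr_of_eventuallyEq (Eventually.of_forall fun p => ?_)
      show p.1.1 i.castSucc + (XL p + YL p) / 2 = p.1.1 i.castSucc + (2 : ℂ)⁻¹ • (XL p + YL p)
      rw [smul_eq_mul]
      ring
    rw [h4, h5.fderiv]
    show v.1.1 i.castSucc + (2 : ℂ)⁻¹ • (fderiv ℝ XL p v + fderiv ℝ YL p v) = _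
    rw [hasFDerivAt_XL, hasFDerivAt_YL, smul_eq_mul]
    ring

end

end Vale.Agent.P273.H908.Lk
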